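import Vale.Agent.P043.Defs
import Vale.Agent.P043.Eu.Defs
import Vale.Agent.P043.Bdl.B2

open MeasureTheory in
/-- The periodic tiling conjecture fails in `ℤ^d` and in `ℝ^d` for every `d ≥ 3`. -/
theorem Vale.Agent.Results.P043.PeriodicTilingThree.result :
    (∀ d : ℕ, 3 ≤ d →
      ∃ F : Finset (Fin d → ℤ), F.Nonempty ∧
        (∃ A : Set (Fin d → ℤ), Vale.Agent.P043.IsTiling A F) ∧
        ∀ A : Set (Fin d → ℤ), Vale.Agent.P043.IsTiling A F → ¬ Vale.Agent.P043.IsPeriodic A) ∧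
    (∀ d : ℕ, 3 ≤ d →
      ∃ Om : Set (Fin d → ℝ), Bornology.IsBounded Om ∧ MeasurableSet Om ∧ 0 < volume Om ∧
        (∃ A : Set (Fin d → ℝ), Vale.Agent.P043.Eu.TilesAE Om A) ∧
        ∀ A : Set (Fin d → ℝ), Vale.Agent.P043.Eu.TilesAE Om A →
          ¬ Vale.Agent.P043.Eu.LatticePeriodic A) := by
  refine ⟨fun d hd => Vale.Agent.P043.Z.ptc_fails3 d hd, fun d hd => ?_⟩
  rcases Nat.lt_or_ge d 4 with h | h
  · obtain rfl : d = 3 := by omega
    exact Vale.Agent.P043.Hy.euclid3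
  · exact Vale.Agent.P043.Eu.euclid4 h
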